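import Vale.Agent.P269HP.Main
import Vale.Agent.P269HK.Tw
import Vale.Agent.P269HS.Chi
import Vale.Agent.P269HN.Pn
import Vale.Agent.P269HD.Kah

/-!
# P269, block H: the exact statements of the rows H1-H5 and the assembly of Gauss-Bonnet and of
the Libgober-Wood identity
-/

open scoped Manifold ContDiff Topology
open Finset
open Vale.Agent.P272.K Vale.Agent.P281Z.Hg Vale.Agent.P275MC Vale.Agent.P275FM
open Vale.Agent.P269H (CI)
open Vale.Agent.P269HK Vale.Agent.P269HS Vale.Agent.P269HN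
open Vale.Agent.P264Z (CP)

noncomputable section

namespace Vale.Agent.P269HP

section

variable {r c : ℕ} {M : Type} [TopologicalSpace M] [ChartedSpace (Cm r) M]

/-- the homogeneous coordinates on a complete intersection -/
def hc (X : CI r c M) : HC r M (Fin (r + c + 1)) where
  x y := (X.pt y).rep
  ne y := Function.ne_iff.1 (X.pt y).rep_nonzero
  hol y k hk j e he := by
    have h := (analyticAt_pi_iff.1 (X.hol e he.1 y he.2 k hk).1) j
    simpa only [Pi.smul_apply, smul_eq_mul, div_eq_inv_mul] using h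

theorem hc_x (X : CI r c M) (y : M) : (hc X).x y = (X.pt y).rep := rfl

/-- the degrees, indexed by natural numbers -/
def dN (X : CI r c M) (j : ℕ) : ℕ := if h : j < c then X.dg ⟨j, h⟩ else 0

theorem dN_val (X : CI r c M) (j : Fin c) : dN X j = X.dg j := dif_pos j.2

variable [IsManifold 𝓘(ℂ, Cm r) ω M]

/-- the cohomology of `O(-t)` is finite dimensional -/
abbrev FdT (X : CI r c M) (t : ℕ) : Prop := Fd ((hc X).D t)

/-- `χ(X, O(-t))` -/
def chiT (X : CI r c M) (t : ℕ) : ℂ := chi ((hc X).D t) ((hc X).σ t)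

end

/-- **H4**: `χ(P^n, O) = 1` -/
def ANC : Prop := ∀ n, FdT (pn n) 0 ∧ chiT (pn n) 0 = 1

/-- **H1-H3**, hyperplane section of projective space -/
def PAS : Prop := ∀ n t, FdT (pn (n + 1)) t → FdT (pn n) t →
  FdT (pn (n + 1)) (t + 1) ∧ chiT (pn (n + 1)) t = chiT (pn (n + 1)) (t + 1) + chiT (pn n) t

/-- **H1-H3**, the Koszul resolution -/
def KOS : Prop := ∀ (r c : ℕ) (M : Type) [TopologicalSpace M] [ChartedSpace (Cm r) M]
  [IsManifold 𝓘(ℂ, Cm r) ω M] [T2Space M] [CompactSpace M] [ConnectedSpace M] (X : CI r c M),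
  (∀ s, FdT (pn (r + c)) s) → ∀ t, FdT X t ∧
    chiT X t = ∑ S : Finset (Fin c), (-1) ^ S.card * chiT (pn (r + c)) (t + ∑ j ∈ S, X.dg j)

/-- **H5**: the bundle sequences; `e j k t = χ(X, Λ^k V_j (-t))` -/
def BUN : Prop := ∀ (r c : ℕ) (M : Type) [TopologicalSpace M] [ChartedSpace (Cm r) M]
  [IsManifold 𝓘(ℂ, Cm r) ω M] [T2Space M] [CompactSpace M] [ConnectedSpace M] (X : CI r c M)
  (w : Rw r M (Matrix (Fin r) (Fin r) ℂ)) (ι : Type) [Fintype ι] (φ : ι → SF r M) (p q : ι → ℕ),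
  IsKahler w → P269HD.Bas (dd r M) φ → (∀ a, P269HD.Pure (p a) (q a) (φ a)) → (∀ t, FdT X t) →
  ∃ e : ℕ → ℕ → ℕ → ℂ,
    (∀ k t, e 0 k t = ((r + c + 1).choose k : ℂ) * chiT X (t + k)) ∧
    (∀ (j : Fin c) t, e j 0 t = e (j + 1) 0 t) ∧
    (∀ (j : Fin c) k t, e j (k + 1) t = e (j + 1) (k + 1) t + e (j + 1) k (t + X.dg j)) ∧
    (∃ B, ∀ k, B < k → ∀ t, e c k t = 0) ∧
    e c 0 0 = ∑ a with p a = 0, (-1 : ℂ) ^ q a ∧
    ∀ k, e c (k + 1) 0 = ∑ a with p a = k + 1, (-1 : ℂ) ^ q a + ∑ a with p a = k, (-1 : ℂ) ^ q a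

end Vale.Agent.P269HP
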