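import Vale.Agent.P269HP.IF
import Vale.Agent.P269HD.Ring

/-!
# P269, row H10: Gauss-Bonnet and the Libgober-Wood identity from the rows H1-H5
-/

open scoped Manifold ContDiff Topology
open Finset
open Vale.Agent.P272.K Vale.Agent.P281Z.Hg Vale.Agent.P275MC Vale.Agent.P275FM
open Vale.Agent.P269H (CI)
open Vale.Agent.P269HK Vale.Agent.P269HS Vale.Agent.P269HN
open Vale.Agent.P264Z (CP)

noncomputable section

namespace Vale.Agent.P269HP

theorem x0_ne (y : CP 0) : (hc (pn 0)).x y 0 ≠ 0 := by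
  obtain ⟨k, hk⟩ := (hc (pn 0)).ne y
  rwa [Subsingleton.elim (α := Fin 1) k 0] at hk

theorem hs_inv : (hc (pn 0)).Hs (-1) fun y => ((hc (pn 0)).x y 0)⁻¹ := fun y k _ =>
  (smt_const 1).congr (.of_forall fun y' => by
    rw [Subsingleton.elim (α := Fin 1) k 0, zpow_neg_one, div_self (inv_ne_zero (x0_ne y'))])

theorem pt_step (t : ℕ) :
    (FdT (pn 0) (t + 1) ↔ FdT (pn 0) t) ∧ chiT (pn 0) (t + 1) = chiT (pn 0) t := by
  have h1 : ((t + 1 : ℕ) : ℤ) = (t : ℤ) + 1 := by push_cast; ring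
  have h2 : ((t : ℕ) : ℤ) = ((t + 1 : ℕ) : ℤ) + -1 := by push_cast; ring
  have hb : Function.Bijective (HC.mul (HC.hh_x (H := hc (pn 0)) 0).hs h1) := by
    refine Function.bijective_iff_has_inverse.2 ⟨HC.mul hs_inv h2, fun v => ?_, fun v => ?_⟩
    · refine HC.hv_ext fun e y he => ?_
      rw [HC.hv_mul _ _ _ he, HC.hv_mul _ _ _ he, smul_smul, inv_mul_cancel₀ (x0_ne y), one_smul]
    · refine HC.hv_ext fun e y he => ?_
      rw [HC.hv_mul _ _ _ he, HC.hv_mul _ _ _ he, smul_smul, mul_inv_cancel₀ (x0_ne y), one_smul]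
  have hD := HC.D_mul (HC.hh_x (H := hc (pn 0)) 0) h1
  exact ⟨fd_iso hD hb, chi_iso hD hb HC.D_σ (HC.σ_mul (HC.hh_x (H := hc (pn 0)) 0).hs h1)⟩

theorem pt_all (hA : ANC) (t : ℕ) : FdT (pn 0) t ∧ chiT (pn 0) t = 1 := by
  induction t with
  | zero => exact hA 0
  | succ t ih => exact ⟨(pt_step t).1.2 ih.1, (pt_step t).2.trans ih.2⟩

theorem fd_pn (hA : ANC) (hP : PAS) (n t : ℕ) : FdT (pn n) t := by
  induction n generalizing t with
  | zero => exact (pt_all hA t).1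
  | succ n ih =>
    induction t with
    | zero => exact (hA _).1
    | succ t iht => exact (hP n t iht (ih t)).1

variable {r c : ℕ} {M : Type} [TopologicalSpace M] [ChartedSpace (Cm r) M]

theorem sum_dN (X : CI r c M) (f : ℕ → ℕ → ℂ) :
    ∑ S : Finset (Fin c), f S.card (∑ j ∈ S, X.dg j) =
      ∑ S ∈ (range c).powerset, f S.card (∑ j ∈ S, dN X j) := by
  refine sum_nbij' (fun S => S.map Fin.valEmbedding)
    (fun T => univ.filter fun k : Fin c => k.val ∈ T) ?_ ?_ ?_ ?_ ?_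
  · intro S _
    refine mem_coe.2 (mem_powerset.2 fun k hk => ?_)
    obtain ⟨j, -, rfl⟩ := mem_map.1 hk
    exact mem_range.2 j.2
  · intro T _
    exact mem_coe.2 (mem_univ _)
  · intro S _
    ext k
    simp [Fin.val_inj]
  · intro T hT
    ext k
    simp only [mem_map, mem_filter, mem_univ, true_and, Fin.valEmbedding_apply]
    exact ⟨fun ⟨j, hj, e⟩ => e ▸ hj,
      fun hk => ⟨⟨k, mem_range.1 (mem_powerset.1 (mem_coe.1 hT) hk)⟩, hk, rfl⟩⟩
  · intro S _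
    rw [card_map, sum_map]
    simp only [Fin.valEmbedding_apply, dN_val]

theorem prod_dN {R : Type*} [CommMonoid R] (X : CI r c M) (f : ℕ → R) :
    ∏ j ∈ range c, f (dN X j) = ∏ j, f (X.dg j) := by
  rw [prod_range]
  simp only [dN_val]

theorem gam_mul (X : CI r c M) : ((1 + PowerSeries.X) ^ (r + c + 1) *
    ∏ i, (1 + (X.dg i : ℂ) • PowerSeries.X)⁻¹) *
      ∏ j ∈ range c, (1 + PowerSeries.C (dN X j : ℂ) * PowerSeries.X) =
    (1 + PowerSeries.X) ^ (r + c + 1) := by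
  rw [prod_dN X fun k => 1 + PowerSeries.C (k : ℂ) * PowerSeries.X, mul_assoc,
    ← prod_mul_distrib, prod_eq_one, mul_one]
  intro j _
  rw [PowerSeries.smul_eq_C_mul]
  exact PowerSeries.inv_mul_cancel _ (by simp)

theorem gam_zero (X : CI r c M) : X.γ 0 = 1 := by
  simp [CI.γ]

variable [IsManifold 𝓘(ℂ, Cm r) ω M] [T2Space M] [CompactSpace M] [ConnectedSpace M]
  {w : Rw r M (Matrix (Fin r) (Fin r) ℂ)} {ι : Type} [Fintype ι] {φ : ι → SF r M} {p q : ι → ℕ}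

/-- **H10** -/
theorem gb_lw (hA : ANC) (hP : PAS) (hK : KOS) (hB : BUN) (X : CI r c M) (hr : 1 ≤ r)
    (hw : IsKahler w) (hφ : P269HD.Bas (dd r M) φ) (hp : ∀ a, P269HD.Pure (p a) (q a) (φ a)) :
    ∑ k ∈ range (r + 1), (-1) ^ k * ∑ a with p a = k, (-1 : ℂ) ^ q a =
      (∏ j, (X.dg j : ℂ)) * X.γ r ∧
    ∑ k ∈ range (r + 1), (-1) ^ k * ((k : ℂ) - r / 2) ^ 2 * ∑ a with p a = k, (-1 : ℂ) ^ q a =
      (∏ j, (X.dg j : ℂ)) * (r * X.γ r / 12 + X.γ 1 * X.γ (r - 1) / 6) := by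
  have hk := hK r c M X (fd_pn hA hP _)
  obtain ⟨e, e0, e1, e2, ez, o0, o1⟩ := hB r c M X w ι φ p q hw hφ hp fun t => (hk t).1
  have R : Rec r c (dN X) (fun n t => chiT (pn n) t) (chiT X) e
      fun k => ∑ a with p a = k, (-1 : ℂ) ^ q a :=
    ⟨fun t => (pt_all hA t).2, fun n => (hA _).2,
      fun n t => (hP n t (fd_pn hA hP _ _) (fd_pn hA hP _ _)).2,
      fun t => (hk t).2.trans (sum_dN X fun a b => (-1) ^ a * chiT (pn (r + c)) (t + b)),
      e0, fun j hj => e1 ⟨j, hj⟩, fun j hj k t => by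
        rw [dN_val X ⟨j, hj⟩]; exact e2 ⟨j, hj⟩ k t,
      ez, o0, o1, fun k hk => hφ.o_big hp hk⟩
  have h := h8 R hr _ (gam_mul X)
  rwa [prod_dN X fun k => (k : ℂ)] at h

end Vale.Agent.P269HP
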