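import Vale.Agent.P269HP.Todd

set_option autoImplicit false

/-!
P269, block H8 (second half): the two-jet at `y = -1` of the Hirzebruch characteristic series.
-/

namespace Vale.Agent.P269HP

open PowerSeries Finset

variable {K : Type*} [Field K] [CharZero K]

/-- the coefficient of `w ^ k` of a series with coefficients in `K[w]` -/
noncomputable def Jt (k : ℕ) (F : (Polynomial K)⟦X⟧) : K⟦X⟧ := mk fun n => (coeff n F).coeff k

omit [CharZero K] in
theorem coeff_Jt (k n : ℕ) (F : (Polynomial K)⟦X⟧) : coeff n (Jt k F) = (coeff n F).coeff k := by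
  simp [Jt]

omit [CharZero K] in
theorem Jt_mul (k : ℕ) (F G : (Polynomial K)⟦X⟧) :
    Jt k (F * G) = ∑ p ∈ antidiagonal k, Jt p.1 F * Jt p.2 G := by
  ext n
  simp only [coeff_Jt, coeff_mul, Polynomial.finsetSum_coeff, Polynomial.coeff_mul, map_sum]
  exact sum_comm

/-- the two-jet is that of the Libgober-Wood identities for the total class `c` -/
structure Good (F : (Polynomial K)⟦X⟧) (c : K⟦X⟧) : Prop where
  c0 : coeff 0 c = 1
  j0 : Jt 0 F = c
  j1 : 2 * Jt 1 F = -th c
  j2 : 24 * Jt 2 F = 3 * (th (th c) - th c) + 2 * (C (coeff 1 c) * X * c - th c)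

omit [CharZero K] in
theorem coeff_one_mul' {f g : K⟦X⟧} (hf : coeff 0 f = 1) (hg : coeff 0 g = 1) :
    coeff 1 (f * g) = coeff 1 f + coeff 1 g := by
  rw [coeff_zero_eq_constantCoeff_apply] at hf hg
  simp [coeff_mul, Nat.antidiagonal_succ, hf, hg, add_comm]

omit [CharZero K] in
theorem coeff_zero_mul' (f g : K⟦X⟧) : coeff 0 (f * g) = coeff 0 f * coeff 0 g := by
  simp

omit [CharZero K] in
theorem Jt0 (F G : (Polynomial K)⟦X⟧) : Jt 0 (F * G) = Jt 0 F * Jt 0 G := by
  simp [Jt_mul]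

omit [CharZero K] in
theorem Jt1 (F G : (Polynomial K)⟦X⟧) : Jt 1 (F * G) = Jt 0 F * Jt 1 G + Jt 1 F * Jt 0 G := by
  simp [Jt_mul, Nat.antidiagonal_succ]

omit [CharZero K] in
theorem Jt2 (F G : (Polynomial K)⟦X⟧) :
    Jt 2 (F * G) = Jt 0 F * Jt 2 G + Jt 1 F * Jt 1 G + Jt 2 F * Jt 0 G := by
  simp [Jt_mul, Nat.antidiagonal_succ, add_assoc]

omit [CharZero K] in
theorem Good.mul {F G : (Polynomial K)⟦X⟧} {f g : K⟦X⟧} (hF : Good F f) (hG : Good G g) :
    Good (F * G) (f * g) where
  c0 := by rw [coeff_zero_mul', hF.c0, hG.c0, mul_one]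
  j0 := by rw [Jt0, hF.j0, hG.j0]
  j1 := by
    rw [Jt1, hF.j0, hG.j0, th_mul]
    linear_combination f * hG.j1 + g * hF.j1
  j2 := by
    rw [Jt2, hF.j0, hG.j0, coeff_one_mul' hF.c0 hG.c0, th_mul, th_add, th_mul, th_mul, map_add]
    linear_combination f * hG.j2 + g * hF.j2 + 6 * (2 * Jt 1 G) * hF.j1 - 6 * th f * hG.j1

omit [CharZero K] in
theorem Good.ne {G : (Polynomial K)⟦X⟧} {g : K⟦X⟧} (hG : Good G g) : g ≠ 0 := by
  intro h
  have := hG.c0
  rw [h, map_zero] at this
  exact zero_ne_one this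

omit [CharZero K] in
theorem Good.div {F G : (Polynomial K)⟦X⟧} {f g : K⟦X⟧} (hH : Good (F * G) (f * g))
    (hG : Good G g) : Good F f := by
  have hg := hG.ne
  have c0 : coeff 0 f = 1 := by
    have := hH.c0
    rwa [coeff_zero_mul', hG.c0, mul_one] at this
  have j0 : Jt 0 F = f := by
    have := hH.j0
    rw [Jt0, hG.j0] at this
    exact mul_right_cancel₀ hg this
  have j1 : 2 * Jt 1 F = -th f := by
    have := hH.j1
    rw [Jt1, j0, hG.j0, th_mul] at this
    apply mul_right_cancel₀ hg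
    linear_combination this - f * hG.j1
  refine ⟨c0, j0, j1, ?_⟩
  have := hH.j2
  rw [Jt2, j0, hG.j0, coeff_one_mul' c0 hG.c0, th_mul, th_add, th_mul, th_mul, map_add] at this
  apply mul_right_cancel₀ hg
  linear_combination this - f * hG.j2 - 6 * (2 * Jt 1 G) * j1 + 6 * th f * hG.j1

omit [CharZero K] in
theorem good_one : Good (1 : (Polynomial K)⟦X⟧) 1 := by
  have h : ∀ k, Jt (k + 1) (1 : (Polynomial K)⟦X⟧) = 0 := by
    intro k
    ext n
    rw [coeff_Jt, coeff_one]
    split_ifs <;> simp [Polynomial.coeff_one]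
  have t1 : th (1 : K⟦X⟧) = 0 := by simp [th]
  have t0 : th (0 : K⟦X⟧) = 0 := by simp [th]
  refine ⟨by simp, ?_, by rw [h 0, t1]; simp, by rw [h 1, t1, t0]; simp [coeff_one]⟩
  ext n
  rw [coeff_Jt, coeff_one, coeff_one]
  split_ifs <;> simp

omit [CharZero K] in
theorem good_prod {ι : Type*} (S : Finset ι) (F : ι → (Polynomial K)⟦X⟧) (f : ι → K⟦X⟧)
    (h : ∀ i ∈ S, Good (F i) (f i)) : Good (∏ i ∈ S, F i) (∏ i ∈ S, f i) := by
  classical
  induction S using Finset.induction_on with
  | empty => simpa using good_one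
  | insert i S hi ih =>
    rw [prod_insert hi, prod_insert hi]
    exact (h i (mem_insert_self _ _)).mul (ih fun j hj => h j (mem_insert_of_mem hj))

/-- the Hirzebruch series `Td (a w x) - (w - 1) a x` -/
noncomputable def Qw (a : K) : (Polynomial K)⟦X⟧ :=
  mk fun n => Polynomial.monomial n (a ^ n * coeff n (Td : K⟦X⟧)) -
    if n = 1 then Polynomial.C a * (Polynomial.X - 1) else 0

theorem Jt_Qw (a : K) (k : ℕ) : Jt k (Qw a) = monomial k (a ^ k * coeff k (Td : K⟦X⟧)) -
    C ((Polynomial.C a * (Polynomial.X - 1)).coeff k) * X := by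
  ext n
  rw [coeff_Jt, Qw, coeff_mk, Polynomial.coeff_sub, Polynomial.coeff_monomial, map_sub,
    coeff_monomial, coeff_C_mul, coeff_X]
  congr 1
  · split_ifs with h
    · rw [h]
    · rfl
  · split_ifs <;> simp

theorem good_Qw (a : K) : Good (Qw a) (1 + C a * X) := by
  have t1 : th (1 + C a * X : K⟦X⟧) = C a * X := by
    ext n
    rw [coeff_th, map_add, coeff_C_mul, coeff_X, coeff_one]
    rcases n with _ | _ | n <;> simp
  have t2 : th (C a * X : K⟦X⟧) = C a * X := by
    ext n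
    rw [coeff_th, coeff_C_mul, coeff_X]
    rcases n with _ | _ | n <;> simp
  refine ⟨by simp, ?_, ?_, ?_⟩
  · rw [Jt_Qw, Td0]
    simp [monomial_zero_eq_C_apply]
  · rw [Jt_Qw, Td1, t1]
    ext n
    rw [show (2 : K⟦X⟧) = C 2 from (map_ofNat C 2).symm]
    simp only [coeff_C_mul, map_sub, map_neg, coeff_monomial, coeff_X]
    split_ifs
    · simp [Polynomial.coeff_one]; ring
    · simp
  · rw [Jt_Qw, Td2, t1, t2]
    have e : (3 : K⟦X⟧) * (C a * X - C a * X) + 2 * (C (coeff 1 (1 + C a * X : K⟦X⟧)) * X *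
        (1 + C a * X) - C a * X) = C (2 * a ^ 2) * X ^ 2 := by
      have : coeff 1 (1 + C a * X : K⟦X⟧) = a := by simp [coeff_one]
      rw [this, map_mul, map_pow, map_ofNat]; ring
    rw [e]
    ext n
    rw [show (24 : K⟦X⟧) = C 24 from (map_ofNat C 24).symm]
    simp only [coeff_C_mul, map_sub, coeff_monomial, coeff_X, coeff_X_pow]
    have z : (Polynomial.C a * (Polynomial.X - 1)).coeff 2 = 0 := by
      simp [Polynomial.coeff_one, Polynomial.coeff_X]
    rw [z]
    split_ifs <;> first | (exfalso; omega) | ring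

theorem cc_Qw (a : K) : constantCoeff (Qw a) = 1 := by
  rw [← coeff_zero_eq_constantCoeff_apply, Qw, coeff_mk, Td0]
  simp

theorem map_Qw (a w : K) : map (Polynomial.evalRingHom w) (Qw a) =
    rescale (a * w) Td - C (a * (w - 1)) * X := by
  ext n
  rw [coeff_map, Qw, coeff_mk, map_sub, map_sub, coeff_rescale, coeff_C_mul, coeff_X]
  congr 1
  · simp [mul_pow]; ring
  · split_ifs <;> simp

theorem Tda (a : K) : rescale a (Td : K⟦X⟧) * (1 - ex (-a)) = C a * X := by
  have := congrArg (rescale a) (Td_mul (K := K))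
  rwa [map_mul, map_sub, map_one, rescale_ex, rescale_X, neg_one_mul] at this

theorem resc_Qw (a w : K) : rescale w ((1 + C (w - 1) * ex (-a)) * rescale a Td) =
    C w * map (Polynomial.evalRingHom w) (Qw a) := by
  have e : (1 + C (w - 1) * ex (-a)) * rescale a Td =
      C w * rescale a Td - C ((w - 1) * a) * (X : K⟦X⟧) := by
    have := Tda a
    simp only [map_sub, map_mul, map_one]
    linear_combination (1 - C w) * this
  have rc : ∀ u : K, rescale w (C u) = C u := by
    intro u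
    ext n
    rw [coeff_rescale, coeff_C]
    split_ifs with h <;> simp [h]
  rw [e, map_Qw, map_sub, map_mul, map_mul, rc, rc, rescale_rescale, rescale_X]
  simp only [map_sub, map_mul, map_one]
  ring

end Vale.Agent.P269HP
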