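import Vale.Agent.P269HP.Jet

set_option autoImplicit false

/-!
P269, block H8: Gauss-Bonnet and the Libgober-Wood identity for complete intersections from the
recursions of the holomorphic Euler characteristics.
-/

namespace Vale.Agent.P269HP

open PowerSeries Finset

variable {K : Type*} [Field K] [CharZero K]

omit [CharZero K] in
theorem sum_rec (y : K) (B : ℕ) (u v v' : ℕ → K) (h0 : u 0 = v 0)
    (h1 : ∀ p, u (p + 1) = v (p + 1) + v' p) (hB : v' B = 0) :
    ∑ p ∈ range (B + 1), y ^ p * u p =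
      ∑ p ∈ range (B + 1), y ^ p * v p + y * ∑ p ∈ range (B + 1), y ^ p * v' p := by
  rw [sum_range_succ' (fun p => y ^ p * u p), sum_range_succ' (fun p => y ^ p * v p),
    sum_range_succ (fun p => y ^ p * v' p), hB, h0, mul_zero, add_zero, mul_sum, add_right_comm,
    ← sum_add_distrib]
  congr 1
  refine sum_congr rfl fun p _ => ?_
  rw [h1]; ring

/-- the data of the recursions; the last index `t` stands for the twist by `O(-t)` -/
structure Rec (r c : ℕ) (d : ℕ → ℕ) (b : ℕ → ℕ → K) (a : ℕ → K) (e : ℕ → ℕ → ℕ → K)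
    (o : ℕ → K) : Prop where
  b0 : ∀ t, b 0 t = 1
  b1 : ∀ n, b (n + 1) 0 = 1
  b2 : ∀ n t, b (n + 1) t = b (n + 1) (t + 1) + b n t
  kos : ∀ t, a t = ∑ S ∈ (range c).powerset, (-1) ^ S.card * b (r + c) (t + ∑ j ∈ S, d j)
  e0 : ∀ p t, e 0 p t = ((r + c + 1).choose p : K) * a (t + p)
  e1 : ∀ j < c, ∀ t, e j 0 t = e (j + 1) 0 t
  e2 : ∀ j < c, ∀ p t, e j (p + 1) t = e (j + 1) (p + 1) t + e (j + 1) p (t + d j)
  ez : ∃ M, ∀ p, M < p → ∀ t, e c p t = 0
  o0 : e c 0 0 = o 0
  o1 : ∀ p, e c (p + 1) 0 = o (p + 1) + o p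
  oz : ∀ p, r < p → o p = 0

variable {r c : ℕ} {d : ℕ → ℕ} {b : ℕ → ℕ → K} {a : ℕ → K} {e : ℕ → ℕ → ℕ → K} {o : ℕ → K}

theorem Rec.a_eq (h : Rec r c d b a e o) (t : ℕ) :
    a t = La (r + c) ((∏ j ∈ range c, (1 - ex (-(d j : K)))) * Td ^ (r + c + 1)) t := by
  rw [h.kos, prod_sub, sum_mul, La_sum]
  refine sum_congr rfl fun S _ => ?_
  rw [pb_eq b h.b0 h.b1 h.b2, ← La_ex, ← La_C, prod_const_one, ex_prod]
  congr 1
  simp only [map_pow, map_neg, map_one, sum_neg_distrib]
  push_cast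
  ring

theorem Rec.e_ex (h : Rec r c d b a e o) (j : ℕ) (hj : j ≤ c) (p : ℕ) :
    ∃ g, ∀ t, e j p t = La (r + c) g t := by
  induction j generalizing p with
  | zero =>
    exact ⟨_, fun t => by rw [h.e0, h.a_eq, ← La_ex, ← La_C]⟩
  | succ j ih =>
    induction p with
    | zero =>
      obtain ⟨g, hg⟩ := ih (by omega) 0
      exact ⟨g, fun t => by rw [← h.e1 j (by omega), hg]⟩
    | succ p ihp =>
      obtain ⟨g, hg⟩ := ih (by omega) (p + 1)
      obtain ⟨g', hg'⟩ := ihp
      refine ⟨g - ex (-(d j : K)) * g', fun t => ?_⟩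
      rw [La_sub, La_ex, ← hg, ← hg', h.e2 j (by omega)]
      ring

omit [CharZero K] in
theorem Rec.e_z (h : Rec r c d b a e o) :
    ∃ B, r + c + 1 ≤ B ∧ ∀ j ≤ c, ∀ t, e j B t = 0 := by
  obtain ⟨M, hM⟩ := h.ez
  have key : ∀ i ≤ c, ∀ p, M + i < p → ∀ t, e (c - i) p t = 0 := by
    intro i
    induction i with
    | zero => intro _ p hp t; exact hM p hp t
    | succ i ih =>
      intro hi p hp t
      obtain ⟨p, rfl⟩ : ∃ q, p = q + 1 := ⟨p - 1, by omega⟩
      rw [h.e2 _ (by omega), show c - (i + 1) + 1 = c - i by omega, ih (by omega) _ (by omega),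
        ih (by omega) _ (by omega), add_zero]
  refine ⟨M + c + r + c + 1, by omega, fun j hj t => ?_⟩
  have := key (c - j) (by omega) (M + c + r + c + 1) (by omega) t
  rwa [show c - (c - j) = j by omega] at this

theorem Rec.gen (h : Rec r c d b a e o) (y : K) : ∃ G : K⟦X⟧,
    coeff (r + c) G = (1 + y) * ∑ p ∈ range (r + 1), y ^ p * o p ∧
    (X : K⟦X⟧) ^ (r + c + 1) ∣ (1 + C y * ex (-1)) ^ (r + c + 1) *
      ((∏ j ∈ range c, (1 - ex (-(d j : K)))) * Td ^ (r + c + 1)) -
      (∏ j ∈ range c, (1 + C y * ex (-(d j : K)))) * G := by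
  obtain ⟨B, hB, hz⟩ := h.e_z
  have key : ∀ j ≤ c, ∃ G : K⟦X⟧,
      (∀ t, La (r + c) G t = ∑ p ∈ range (B + 1), y ^ p * e j p t) ∧
      (X : K⟦X⟧) ^ (r + c + 1) ∣ (1 + C y * ex (-1)) ^ (r + c + 1) *
        ((∏ j ∈ range c, (1 - ex (-(d j : K)))) * Td ^ (r + c + 1)) -
        (∏ i ∈ range j, (1 + C y * ex (-(d i : K)))) * G := by
    intro j
    induction j with
    | zero =>
      intro _
      refine ⟨_, fun t => ?_, by rw [prod_range_zero, one_mul, sub_self]; exact dvd_zero _⟩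
      rw [add_comm (1 : K⟦X⟧), add_pow, sum_mul, La_sum]
      symm
      rw [← sum_subset (range_subset_range.2 (show r + c + 1 + 1 ≤ B + 1 by omega))]
      · refine sum_congr rfl fun p _ => ?_
        rw [h.e0, h.a_eq, ← La_ex, ← mul_assoc, ← La_C]
        congr 1
        rw [mul_pow, ex_pow]
        simp only [map_mul, map_pow, map_natCast, one_pow, mul_neg, mul_one]
        ring
      · intro p _ hp
        rw [h.e0, Nat.choose_eq_zero_of_lt (by simpa using hp)]
        simp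
    | succ j ih =>
      intro hj
      obtain ⟨G, hG, hd⟩ := ih (by omega)
      choose g hg using h.e_ex (j + 1) hj
      refine ⟨∑ p ∈ range (B + 1), C (y ^ p) * g p, fun t => ?_, ?_⟩
      · rw [La_sum]
        exact sum_congr rfl fun p _ => by rw [La_C, hg]
      · have h1 : (X : K⟦X⟧) ^ (r + c + 1) ∣ G - (1 + C y * ex (-(d j : K))) *
            ∑ p ∈ range (B + 1), C (y ^ p) * g p := by
          apply dvd_of_La
          intro t
          have hs : ∀ t, La (r + c) (∑ p ∈ range (B + 1), C (y ^ p) * g p) t =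
              ∑ p ∈ range (B + 1), y ^ p * e (j + 1) p t := fun t => by
            rw [La_sum]
            exact sum_congr rfl fun p _ => by rw [La_C, hg]
          rw [La_sub, add_mul, one_mul, La_add, mul_assoc, La_C, La_ex,
            hG, hs, hs, sum_rec y B (fun p => e j p t) (fun p => e (j + 1) p t)
            (fun p => e (j + 1) p (t + d j))
            (h.e1 j (by omega) t) (fun p => h.e2 j (by omega) p t) (hz _ hj _), sub_self]
        have h2 := dvd_add hd (h1.mul_left (∏ i ∈ range j, (1 + C y * ex (-(d i : K)))))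
        rw [prod_range_succ]
        convert h2 using 1
        ring
  obtain ⟨G, hG, hd⟩ := key c le_rfl
  refine ⟨G, ?_, hd⟩
  rw [← La_zero, hG, sum_rec y B (fun p => e c p 0) o o h.o0 h.o1 (h.oz B (by omega)),
    ← one_add_mul]
  congr 1
  symm
  refine sum_subset (range_subset_range.2 (by omega)) fun p _ hp => ?_
  rw [h.oz p (by simpa using hp), mul_zero]

theorem Rec.eval (h : Rec r c d b a e o) (F : (Polynomial K)⟦X⟧)
    (hF : F * ∏ j ∈ range c, Qw (d j : K) = Qw 1 ^ (r + c + 1)) (w : K) (hw : w ≠ 0) :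
    ∑ p ∈ range (r + 1), (w - 1) ^ p * o p =
      (∏ j ∈ range c, (d j : K)) * (coeff r F).eval w := by
  obtain ⟨G, hG, hd⟩ := h.gen (w - 1)
  set φ := PowerSeries.map (Polynomial.evalRingHom w) with hφ
  have h1 := map_dvd (rescale w) (hd.mul_left (∏ j ∈ range c, rescale (d j : K) Td))
  have e1 : (∏ j ∈ range c, rescale (d j : K) Td) * ((1 + C (w - 1) * ex (-1)) ^ (r + c + 1) *
      ((∏ j ∈ range c, (1 - ex (-(d j : K)))) * Td ^ (r + c + 1)) -
      (∏ j ∈ range c, (1 + C (w - 1) * ex (-(d j : K)))) * G) =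
      ((1 + C (w - 1) * ex (-1)) * rescale (1 : K) Td) ^ (r + c + 1) *
        ∏ j ∈ range c, (C (d j : K) * X) -
      (∏ j ∈ range c, (1 + C (w - 1) * ex (-(d j : K))) * rescale (d j : K) Td) * G := by
    simp only [← Tda, prod_mul_distrib, rescale_one, RingHom.id_apply, mul_pow]
    ring
  have rc : ∀ u : K, rescale w (C u) = C u := by
    intro u
    ext n
    rw [coeff_rescale, coeff_C]
    split_ifs with h <;> simp [h]
  rw [e1, map_sub, map_mul, map_mul, map_pow, map_pow, map_prod, map_prod, rescale_X] at h1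
  simp only [resc_Qw] at h1
  simp only [map_mul (rescale w), rc, rescale_X, ← hφ] at h1
  have e2 : φ (Qw 1) ^ (r + c + 1) = φ F * ∏ j ∈ range c, φ (Qw (d j : K)) := by
    rw [← map_pow, ← hF, map_mul, map_prod]
  have e3 : (C w * φ (Qw 1)) ^ (r + c + 1) * ∏ j ∈ range c, C (d j : K) * (C w * X) -
      (∏ j ∈ range c, C w * φ (Qw (d j : K))) * rescale w G =
      (∏ j ∈ range c, C w * φ (Qw (d j : K))) *
        (C (w ^ (r + c + 1) * ∏ j ∈ range c, (d j : K)) * (X ^ c * φ F) - rescale w G) := by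
    simp only [mul_pow, e2, prod_mul_distrib, prod_const, card_range, map_mul, map_pow, map_prod]
    ring
  have hu : IsUnit (∏ j ∈ range c, C w * φ (Qw (d j : K))) := by
    rw [isUnit_iff_constantCoeff, map_prod]
    refine IsUnit.mk0 _ (prod_ne_zero_iff.2 fun j _ => ?_)
    rw [map_mul, constantCoeff_C, hφ, ← coeff_zero_eq_constantCoeff_apply, coeff_map,
      coeff_zero_eq_constantCoeff_apply, cc_Qw, map_one, mul_one]
    exact hw
  rw [e3, hu.dvd_mul_left, mul_pow] at h1
  have h2 := X_pow_dvd_iff.1 (dvd_of_mul_left_dvd h1) (r + c) (by omega)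
  rw [map_sub, coeff_C_mul, coeff_X_pow_mul, coeff_rescale, hG, hφ, coeff_map] at h2
  apply mul_left_cancel₀ (pow_ne_zero (r + c + 1) hw)
  simp only [Polynomial.coe_evalRingHom] at h2
  linear_combination -h2

omit [CharZero K] in
theorem coeff_pw (p k : ℕ) : ((Polynomial.X - 1 : Polynomial K) ^ p).coeff k =
    (-1) ^ k * ((-1) ^ p * (p.choose k : K)) := by
  have : (Polynomial.X - 1 : Polynomial K) = Polynomial.X + Polynomial.C (-1) := by
    simp [sub_eq_add_neg]
  rw [this, Polynomial.coeff_X_add_C_pow]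
  rcases lt_or_ge p k with hk | hk
  · simp [Nat.choose_eq_zero_of_lt hk]
  · obtain ⟨m, rfl⟩ := Nat.exists_eq_add_of_le hk
    rw [Nat.add_sub_cancel_left, pow_add, ← mul_assoc, ← mul_assoc, ← mul_pow]
    simp

/-- **H8** -/
theorem h8 (h : Rec r c d b a e o) (hr : 1 ≤ r) (cs : K⟦X⟧)
    (hcs : cs * ∏ j ∈ range c, (1 + C (d j : K) * X) = (1 + X) ^ (r + c + 1)) :
    ∑ p ∈ range (r + 1), (-1) ^ p * o p = (∏ j ∈ range c, (d j : K)) * coeff r cs ∧
    ∑ p ∈ range (r + 1), (-1) ^ p * ((p : K) - r / 2) ^ 2 * o p = (∏ j ∈ range c, (d j : K)) *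
      (r * coeff r cs / 12 + coeff 1 cs * coeff (r - 1) cs / 6) := by
  set Q : (Polynomial K)⟦X⟧ := ∏ j ∈ range c, Qw (d j : K) with hQ
  have hQ1 : constantCoeff Q = ((1 : (Polynomial K)ˣ) : Polynomial K) := by
    simp [hQ, cc_Qw]
  set F := Qw (1 : K) ^ (r + c + 1) * invOfUnit Q 1 with hFd
  have hF : F * Q = Qw 1 ^ (r + c + 1) := by
    rw [hFd, mul_assoc, mul_comm _ Q, mul_invOfUnit Q 1 hQ1, mul_one]
  have gF : Good F cs := by
    refine Good.div ?_ (good_prod (range c) _ _ fun j _ => good_Qw (d j : K))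
    rw [hF, hcs]
    simpa using good_prod (range (r + c + 1)) _ _ fun _ _ => good_Qw (1 : K)
  have hP : ∑ p ∈ range (r + 1), Polynomial.C (o p) * (Polynomial.X - 1) ^ p =
      Polynomial.C (∏ j ∈ range c, (d j : K)) * coeff r F := by
    apply Polynomial.eq_of_infinite_eval_eq
    apply Set.infinite_of_injective_forall_mem (f := fun n : ℕ => ((n + 1 : ℕ) : K))
      (Nat.cast_injective.comp (add_left_injective 1))
    intro n
    have := h.eval F hF ((n + 1 : ℕ) : K) (Nat.cast_ne_zero.2 n.succ_ne_zero)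
    simp only [Set.mem_ofPred_eq, Polynomial.eval_finsetSum, Polynomial.eval_mul,
      Polynomial.eval_C, Polynomial.eval_pow, Polynomial.eval_sub, Polynomial.eval_X,
      Polynomial.eval_one]
    rw [← this]
    exact sum_congr rfl fun p _ => mul_comm _ _
  have hk : ∀ k, (-1) ^ k * ∑ p ∈ range (r + 1), (-1) ^ p * (p.choose k : K) * o p =
      (∏ j ∈ range c, (d j : K)) * coeff r (Jt k F) := by
    intro k
    have := congrArg (fun q => Polynomial.coeff q k) hP
    simp only [Polynomial.finsetSum_coeff, Polynomial.coeff_C_mul, coeff_pw] at this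
    rw [coeff_Jt, ← this, mul_sum]
    exact sum_congr rfl fun p _ => by ring
  have k0 := hk 0
  have k1 := hk 1
  have k2 := hk 2
  have j1 := congrArg (coeff r) gF.j1
  have j2 := congrArg (coeff r) gF.j2
  rw [gF.j0] at k0
  obtain ⟨m, rfl⟩ : ∃ m, r = m + 1 := ⟨r - 1, by omega⟩
  rw [show (2 : K⟦X⟧) = C 2 from (map_ofNat C 2).symm] at j1 j2
  rw [show (24 : K⟦X⟧) = C 24 from (map_ofNat C 24).symm,
    show (3 : K⟦X⟧) = C 3 from (map_ofNat C 3).symm, mul_assoc] at j2
  simp only [coeff_C_mul, map_neg, map_add, map_sub, coeff_th, coeff_succ_X_mul] at j1 j2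
  simp only [pow_zero, one_mul, Nat.choose_zero_right, Nat.cast_one, mul_one] at k0
  refine ⟨k0, ?_⟩
  have e : ∑ p ∈ range (m + 1 + 1), (-1) ^ p * ((p : K) - ((m + 1 : ℕ) : K) / 2) ^ 2 * o p =
      2 * ∑ p ∈ range (m + 1 + 1), (-1) ^ p * (p.choose 2 : K) * o p +
      (1 - ((m + 1 : ℕ) : K)) * ∑ p ∈ range (m + 1 + 1), (-1) ^ p * (p.choose 1 : K) * o p +
      ((m + 1 : ℕ) : K) ^ 2 / 4 * ∑ p ∈ range (m + 1 + 1), (-1) ^ p * o p := by
    simp only [mul_sum, ← sum_add_distrib]
    refine sum_congr rfl fun p _ => ?_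
    rw [Nat.cast_choose_two, Nat.choose_one_right]
    ring
  rw [e, k0, Nat.add_sub_cancel]
  linear_combination 2 * k2 - (1 - ((m + 1 : ℕ) : K)) * k1 +
    (∏ j ∈ range c, (d j : K)) / 12 * j2 -
    (1 - ((m + 1 : ℕ) : K)) * (∏ j ∈ range c, (d j : K)) / 2 * j1

end Vale.Agent.P269HP
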