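import Mathlib

set_option autoImplicit false

/-!
P269, block H8 (first half): Euler characteristics of twists on projective space as coefficients
of power series.
-/

namespace Vale.Agent.P269HP

open PowerSeries Finset

variable {K : Type*} [Field K] [CharZero K]

/-- `exp (t x)` -/
noncomputable def ex (t : K) : K⟦X⟧ := rescale t (exp K)

/-- `x / (1 - exp (-x))` -/
noncomputable def Td : K⟦X⟧ := bernoulli'PowerSeries K

theorem ex_add (s t : K) : ex s * ex t = ex (s + t) := exp_mul_exp_eq_exp_add s t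

theorem coeff_ex (t : K) (n : ℕ) : coeff n (ex t) = t ^ n / (n.factorial : K) := by
  simp [ex, coeff_rescale, coeff_exp, div_eq_mul_inv]

theorem ex_zero : ex (0 : K) = 1 := by
  simp [ex]

theorem ex_one : ex (1 : K) = exp K := by
  simp [ex]

theorem ex_pow (t : K) (n : ℕ) : ex t ^ n = ex (n * t) := by
  induction n with
  | zero => simp [ex_zero]
  | succ n ih => rw [pow_succ, ih, ex_add]; congr 1; push_cast; ring

theorem ex_prod {ι : Type*} (S : Finset ι) (f : ι → K) :
    ∏ i ∈ S, ex (f i) = ex (∑ i ∈ S, f i) := by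
  classical
  induction S using Finset.induction_on with
  | empty => simp [ex_zero]
  | insert i S hi ih => rw [prod_insert hi, sum_insert hi, ih, ex_add]

theorem rescale_ex (a t : K) : rescale a (ex t) = ex (t * a) := by
  rw [ex, rescale_rescale, ex]

theorem cc_ex (t : K) : constantCoeff (ex t) = 1 := by
  rw [← coeff_zero_eq_constantCoeff_apply, coeff_ex]; simp

theorem d_ex (t : K) : d⁄dX K (ex t) = C t * ex t := by
  ext n
  rw [coeff_derivative, coeff_C_mul, coeff_ex, coeff_ex, Nat.factorial_succ]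
  have h1 : ((n.factorial : ℕ) : K) ≠ 0 := Nat.cast_ne_zero.2 n.factorial_ne_zero
  have h2 : ((n : K) + 1) ≠ 0 := Nat.cast_add_one_ne_zero n
  push_cast
  field_simp
  ring

theorem Td_mul : (Td : K⟦X⟧) * (1 - ex (-1)) = X := by
  have h := bernoulli'PowerSeries_mul_exp_sub_one K
  have h2 : exp K * ex (-1 : K) = 1 := by rw [← ex_one, ex_add]; simp [ex_zero]
  unfold Td
  linear_combination ex (-1 : K) * h + (X - bernoulli'PowerSeries K) * h2

theorem coeff_Td (n : ℕ) : coeff n (Td : K⟦X⟧) = ((bernoulli' n / n.factorial : ℚ) : K) := by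
  simp [Td, bernoulli'PowerSeries]

theorem Td0 : coeff 0 (Td : K⟦X⟧) = 1 := by simp [coeff_Td]

theorem Td1 : coeff 1 (Td : K⟦X⟧) = 1 / 2 := by simp [coeff_Td]

theorem Td2 : coeff 2 (Td : K⟦X⟧) = 1 / 12 := by
  rw [coeff_Td, bernoulli'_two]; norm_num [Nat.factorial]

/-- the Euler operator -/
noncomputable def th (f : K⟦X⟧) : K⟦X⟧ := X * d⁄dX K f

omit [CharZero K] in
theorem coeff_th (f : K⟦X⟧) (n : ℕ) : coeff n (th f) = n * coeff n f := by
  cases n with
  | zero => simp [th]
  | succ n => rw [th, coeff_succ_X_mul, coeff_derivative]; push_cast; ring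

omit [CharZero K] in
theorem th_mul (f g : K⟦X⟧) : th (f * g) = th f * g + f * th g := by
  simp only [th, Derivation.leibniz, smul_eq_mul]; ring

omit [CharZero K] in
theorem th_add (f g : K⟦X⟧) : th (f + g) = th f + th g := by
  simp only [th, map_add]; ring

theorem th_Td : th (Td : K⟦X⟧) = Td - Td ^ 2 * ex (-1) := by
  have h := congrArg (d⁄dX K) (Td_mul (K := K))
  rw [Derivation.leibniz, map_sub, d_ex, derivative_X, derivative_one] at h
  simp only [smul_eq_mul, map_neg, map_one] at h
  have h2 := Td_mul (K := K)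
  unfold th
  linear_combination Td * h - d⁄dX K (Td : K⟦X⟧) * h2

theorem th_Td_pow (m : ℕ) : th ((Td : K⟦X⟧) ^ (m + 1)) =
    C ((m : K) + 1) * (Td ^ (m + 1) - Td ^ (m + 2) * ex (-1)) := by
  induction m with
  | zero => simp [th_Td]
  | succ m ih =>
    rw [pow_succ, th_mul, ih, th_Td]
    simp only [Nat.cast_succ, map_add, map_one]
    ring

theorem todd (m : ℕ) : coeff m ((Td : K⟦X⟧) ^ (m + 1)) = 1 := by
  induction m with
  | zero => simpa using Td0
  | succ m ih =>
    have h := congrArg (coeff (m + 1)) (th_Td_pow (K := K) m)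
    rw [coeff_th, coeff_C_mul, map_sub] at h
    have h2 : ((m : K) + 1) ≠ 0 := Nat.cast_add_one_ne_zero m
    have h3 : coeff (m + 1) ((Td : K⟦X⟧) ^ (m + 2) * ex (-1)) = 0 := by
      apply mul_left_cancel₀ h2
      push_cast at h
      linear_combination h
    have h4 : (Td : K⟦X⟧) ^ (m + 1 + 1) = Td ^ (m + 2) * ex (-1) + X * Td ^ (m + 1) := by
      rw [← Td_mul (K := K)]; ring
    rw [h4, map_add, h3, coeff_succ_X_mul, ih, zero_add]

/-- the function `t ↦ [x^N] exp (-t x) g` -/
noncomputable def La (N : ℕ) (g : K⟦X⟧) (t : ℕ) : K := coeff N (ex (-(t : K)) * g)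

theorem La_add (N : ℕ) (f g : K⟦X⟧) (t : ℕ) : La N (f + g) t = La N f t + La N g t := by
  simp [La, mul_add]

theorem La_sub (N : ℕ) (f g : K⟦X⟧) (t : ℕ) : La N (f - g) t = La N f t - La N g t := by
  simp [La, mul_sub]

theorem La_C (N : ℕ) (a : K) (g : K⟦X⟧) (t : ℕ) : La N (C a * g) t = a * La N g t := by
  rw [La, La, mul_left_comm, coeff_C_mul]

theorem La_sum {ι : Type*} (N : ℕ) (S : Finset ι) (g : ι → K⟦X⟧) (t : ℕ) :
    La N (∑ i ∈ S, g i) t = ∑ i ∈ S, La N (g i) t := by
  simp [La, mul_sum]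

theorem La_ex (N : ℕ) (s : ℕ) (g : K⟦X⟧) (t : ℕ) :
    La N (ex (-(s : K)) * g) t = La N g (t + s) := by
  rw [La, La, ← mul_assoc, ex_add]; congr 3; push_cast; ring

theorem La_zero (N : ℕ) (g : K⟦X⟧) : La N g 0 = coeff N g := by
  simp [La, ex_zero]

theorem dvd_of_La (N : ℕ) (g : K⟦X⟧) (h : ∀ t, La N g t = 0) : (X : K⟦X⟧) ^ (N + 1) ∣ g := by
  set p : Polynomial K := ∑ k ∈ range (N + 1),
    Polynomial.monomial k (coeff (N - k) g / (k.factorial : K)) with hp
  have h0 : p = 0 := by
    apply Polynomial.eq_zero_of_infinite_isRoot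
    apply Set.infinite_of_injective_forall_mem (f := fun t : ℕ => -(t : K))
      (neg_injective.comp Nat.cast_injective)
    intro t
    have := h t
    rw [La, coeff_mul, Nat.sum_antidiagonal_eq_sum_range_succ_mk] at this
    simp only [Set.mem_ofPred_eq, Polynomial.IsRoot.def, hp, Polynomial.eval_finsetSum,
      Polynomial.eval_monomial]
    rw [← this]
    refine sum_congr rfl fun k _ => ?_
    rw [coeff_ex]; ring
  rw [X_pow_dvd_iff]
  intro m hm
  have h1 := congrArg (fun q => Polynomial.coeff q (N - m)) h0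
  simp only [hp, Polynomial.finsetSum_coeff, Polynomial.coeff_monomial, sum_ite_eq',
    mem_range, Polynomial.coeff_zero] at h1
  rw [if_pos (by omega), show N - (N - m) = m by omega] at h1
  have h2 : (((N - m).factorial : ℕ) : K) ≠ 0 := Nat.cast_ne_zero.2 (Nat.factorial_ne_zero _)
  simpa [h2] using h1

/-- Euler characteristics of negative twists on projective space -/
theorem pb_eq (b : ℕ → ℕ → K) (h0 : ∀ t, b 0 t = 1) (h1 : ∀ n, b (n + 1) 0 = 1)
    (h2 : ∀ n t, b (n + 1) t = b (n + 1) (t + 1) + b n t) (n : ℕ) (t : ℕ) :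
    b n t = La n (Td ^ (n + 1)) t := by
  induction n generalizing t with
  | zero =>
    rw [h0, La, coeff_zero_eq_constantCoeff_apply, map_mul, cc_ex, zero_add, pow_one,
      ← coeff_zero_eq_constantCoeff_apply, Td0, mul_one]
  | succ n ih =>
    induction t with
    | zero => rw [h1, La_zero, todd]
    | succ t iht =>
      have e1 : La (n + 1) (Td ^ (n + 1 + 1) - ex (-((1 : ℕ) : K)) * Td ^ (n + 1 + 1)) t =
          La n (Td ^ (n + 1)) t := by
        have : (Td : K⟦X⟧) ^ (n + 1 + 1) - ex (-((1 : ℕ) : K)) * Td ^ (n + 1 + 1) =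
            X * Td ^ (n + 1) := by
          rw [← Td_mul (K := K)]; push_cast; ring
        rw [this, La, La, mul_left_comm, coeff_succ_X_mul]
      rw [La_sub, La_ex] at e1
      have := h2 n t
      rw [ih, iht] at this
      linear_combination e1 - this

end Vale.Agent.P269HP
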